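import Vale.Agent.P241CT.TT
import Vale.Agent.P251.St.OfFunctor

/-!
# Transport of a suspension spectrum functor along a fully faithful braided exact functor
-/

open CategoryTheory MonoidalCategory Limits Pretriangulated
open Functor.LaxMonoidal Functor.OplaxMonoidal Functor.Monoidal

set_option linter.unusedSectionVars false
set_option linter.unusedSimpArgs false

namespace Vale.Agent.P241CT

open Vale.Agent.P251.T Vale.Agent.P251.St

variable {T₀ T₁ : SHCat} (G : T₁.C ⥤ T₀.C) [G.Braided] [G.CommShift ℤ]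

/-- The data `d` correspond to the suspension spectrum functor `S` under `G`. -/
structure Cmp (d : SuspData T₁) (S : Susp T₀) where
  /-- the comparison isomorphisms -/
  φ : ∀ {X : Space}, FC X → (G.obj (d.obj X) ≅ S.obj X)
  map : ∀ {X Y : Space} (hX : FC X) (hY : FC Y) (f : Map X Y),
    G.map (d.map f) ≫ (φ hY).hom = (φ hX).hom ≫ S.map f
  mul : ∀ {X Y : Space} (hX : FC X) (hY : FC Y),
    μ G _ _ ≫ G.map (d.mul X Y) ≫ (φ (fc_prod hX hY)).hom =
      ((φ hX).hom ⊗ₘ (φ hY).hom) ≫ S.mul X Y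
  unit : ε G ≫ G.map d.unit ≫ (φ fcPn).hom = S.unit
  line : G.map d.line ≫ (sIso G).hom = (φ fcRr).hom ≫ S.line

namespace Cmp

variable {G} {d : SuspData T₁} {S : Susp T₀} (c : Cmp G d S) {X Y Z X' Y' : Space}

include c

theorem map_eq (hX : FC X) (hY : FC Y) (f : Map X Y) :
    G.map (d.map f) = (c.φ hX).hom ≫ S.map f ≫ (c.φ hY).inv := by
  rw [← reassoc_of% c.map hX hY f, Iso.hom_inv_id, Category.comp_id]

theorem mul_eq (hX : FC X) (hY : FC Y) : G.map (d.mul X Y) =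
    δ G _ _ ≫ ((c.φ hX).hom ⊗ₘ (c.φ hY).hom) ≫ S.mul X Y ≫ (c.φ (fc_prod hX hY)).inv := by
  rw [← reassoc_of% c.mul hX hY, Iso.hom_inv_id, Category.comp_id, δ_μ_assoc]

theorem unit_eq : G.map d.unit = η G ≫ S.unit ≫ (c.φ fcPn).inv := by
  rw [← reassoc_of% c.unit, Iso.hom_inv_id, Category.comp_id, η_ε_assoc]

theorem line_eq : G.map d.line = (c.φ fcRr).hom ≫ S.line ≫ (sIso G).inv := by
  rw [← reassoc_of% c.line, Iso.hom_inv_id, Category.comp_id]

theorem mul_natural (f : Map X X') (g : Map Y Y') (h : Map (X.prod Y) (X'.prod Y'))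
    (hX : FC X) (hX' : FC X') (hY : FC Y) (hY' : FC Y')
    (e : S.mul X Y ≫ S.map h = (S.map f ⊗ₘ S.map g) ≫ S.mul X' Y') :
    G.map (d.mul X Y ≫ d.map h) = G.map ((d.map f ⊗ₘ d.map g) ≫ d.mul X' Y') := by
  simp only [Functor.map_comp, map_tensor, c.mul_eq hX hY, c.mul_eq hX' hY',
    c.map_eq (fc_prod hX hY) (fc_prod hX' hY'), c.map_eq hX hX', c.map_eq hY hY', Category.assoc,
    Iso.inv_hom_id_assoc, μ_δ_assoc, reassoc_of% e, tensorHom_comp_tensorHom_assoc,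
    Iso.inv_hom_id, Category.comp_id]

theorem mul_assoc (a : Map ((X.prod Y).prod Z) (X.prod (Y.prod Z))) (hX : FC X) (hY : FC Y)
    (hZ : FC Z) (e : (S.mul X Y ⊗ₘ 𝟙 (S.obj Z)) ≫ S.mul (X.prod Y) Z ≫ S.map a =
      (α_ _ _ _).hom ≫ (𝟙 (S.obj X) ⊗ₘ S.mul Y Z) ≫ S.mul X (Y.prod Z)) :
    G.map ((d.mul X Y ⊗ₘ 𝟙 (d.obj Z)) ≫ d.mul (X.prod Y) Z ≫ d.map a) =
      G.map ((α_ _ _ _).hom ≫ (𝟙 (d.obj X) ⊗ₘ d.mul Y Z) ≫ d.mul X (Y.prod Z)) := by
  have n := associator_naturality (c.φ hX).hom (c.φ hY).hom (c.φ hZ).hom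
  have e1 : (δ G (d.obj X) (d.obj Y) ≫ ((c.φ hX).hom ⊗ₘ (c.φ hY).hom) ≫ S.mul X Y) ⊗ₘ
      (c.φ hZ).hom = δ G _ _ ▷ _ ≫ (((c.φ hX).hom ⊗ₘ (c.φ hY).hom) ⊗ₘ (c.φ hZ).hom) ≫
        (S.mul X Y ⊗ₘ 𝟙 _) := by
    simp only [← tensorHom_id, tensorHom_comp_tensorHom, Category.id_comp, Category.comp_id]
  have e2 : (c.φ hX).hom ⊗ₘ (δ G (d.obj Y) (d.obj Z) ≫ ((c.φ hY).hom ⊗ₘ (c.φ hZ).hom) ≫
      S.mul Y Z) = _ ◁ δ G _ _ ≫ ((c.φ hX).hom ⊗ₘ ((c.φ hY).hom ⊗ₘ (c.φ hZ).hom)) ≫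
        (𝟙 _ ⊗ₘ S.mul Y Z) := by
    simp only [← id_tensorHom, tensorHom_comp_tensorHom, Category.id_comp, Category.comp_id]
  simp only [Functor.map_comp, map_tensor, map_associator, c.mul_eq hX hY, c.mul_eq hY hZ,
    c.mul_eq (fc_prod hX hY) hZ, c.mul_eq hX (fc_prod hY hZ), CategoryTheory.Functor.map_id,
    c.map_eq (fc_prod (fc_prod hX hY) hZ) (fc_prod hX (fc_prod hY hZ)), Category.assoc,
    Iso.inv_hom_id_assoc, μ_δ_assoc, tensorHom_comp_tensorHom_assoc, Iso.inv_hom_id,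
    Category.comp_id, Category.id_comp]
  rw [e1, e2]
  simp only [Category.assoc, reassoc_of% e, reassoc_of% n, whiskerLeft_μ_δ_assoc]

theorem mul_unit (a : Map (Pn.prod X) X) (hX : FC X)
    (e : (S.unit ⊗ₘ 𝟙 (S.obj X)) ≫ S.mul Pn X ≫ S.map a = (λ_ _).hom) :
    G.map ((d.unit ⊗ₘ 𝟙 (d.obj X)) ≫ d.mul Pn X ≫ d.map a) = G.map (λ_ _).hom := by
  have e1 : (η G ≫ S.unit) ⊗ₘ (c.φ hX).hom =
      η G ▷ _ ≫ _ ◁ (c.φ hX).hom ≫ (S.unit ⊗ₘ 𝟙 _) := by
    simp only [← tensorHom_id, ← id_tensorHom, tensorHom_comp_tensorHom, Category.id_comp,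
      Category.comp_id]
  simp only [Functor.map_comp, map_tensor, map_leftUnitor, c.mul_eq fcPn hX, c.unit_eq,
    CategoryTheory.Functor.map_id, c.map_eq (fc_prod fcPn hX) hX, Category.assoc,
    Iso.inv_hom_id_assoc, μ_δ_assoc, tensorHom_comp_tensorHom_assoc, Iso.inv_hom_id,
    Category.comp_id, Category.id_comp]
  rw [e1]
  simp only [Category.assoc, reassoc_of% e, leftUnitor_naturality_assoc, Iso.hom_inv_id,
    Category.comp_id]

theorem mul_comm (a : Map (X.prod Y) (Y.prod X)) (hX : FC X) (hY : FC Y)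
    (e : S.mul X Y ≫ S.map a = (β_ _ _).hom ≫ S.mul Y X) :
    G.map (d.mul X Y ≫ d.map a) = G.map ((β_ _ _).hom ≫ d.mul Y X) := by
  simp only [Functor.map_comp, Functor.map_braiding, c.mul_eq hX hY, c.mul_eq hY hX,
    c.map_eq (fc_prod hX hY) (fc_prod hY hX), Category.assoc, Iso.inv_hom_id_assoc, μ_δ_assoc,
    reassoc_of% e, BraidedCategory.braiding_naturality_assoc]

theorem full_aux (hX : FC X) (hY : FC Y) (hZ : FC Z) (g : d.obj X ⟶ d.obj Y)
    (h : Map (X.prod Z) (Y.prod Z)) (e : S.mul X Z ≫ S.map h =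
      (((c.φ hX).inv ≫ G.map g ≫ (c.φ hY).hom) ⊗ₘ 𝟙 _) ≫ S.mul Y Z) :
    G.map (d.mul X Z ≫ d.map h) = G.map ((g ⊗ₘ 𝟙 _) ≫ d.mul Y Z) := by
  simp only [Functor.map_comp, map_tensor, c.mul_eq hX hZ, c.mul_eq hY hZ,
    CategoryTheory.Functor.map_id, c.map_eq (fc_prod hX hZ) (fc_prod hY hZ), Category.assoc,
    Iso.inv_hom_id_assoc, μ_δ_assoc, reassoc_of% e, tensorHom_comp_tensorHom_assoc,
    Iso.hom_inv_id_assoc, Category.comp_id, Category.id_comp]

theorem cone_aux (hX : FC X) (hZ : FC Z) (k : Map Z (X.prod Rr))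
    (p : d.obj Z ⟶ d.obj X ⊗ d.obj Rr) (e : p ≫ d.mul X Rr = d.map k) :
    ((c.φ hZ).inv ≫ G.map p ≫ δ G _ _ ≫ ((c.φ hX).hom ⊗ₘ (c.φ fcRr).hom)) ≫ S.mul X Rr =
      S.map k := by
  have h := congrArg G.map e
  rw [Functor.map_comp, c.mul_eq hX fcRr, c.map_eq hZ (fc_prod hX fcRr)] at h
  rw [← cancel_mono (c.φ (fc_prod hX fcRr)).inv]
  simp only [Category.assoc, h, Iso.inv_hom_id_assoc]

theorem cone_third (he : ∀ Y : T₁.C, G.map (SHCat.tenSus Y) = (eG G Y).hom) (hX : FC X)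
    (hZ : FC Z) (p : d.obj Z ⟶ d.obj X ⊗ d.obj Rr) :
    (G.map (p ≫ (𝟙 (d.obj X) ⊗ₘ d.line) ≫ SHCat.tenSus (d.obj X)) ≫
      (G.commShiftIso (1 : ℤ)).hom.app (d.obj X)) ≫ (c.φ hX).hom⟦(1 : ℤ)⟧' =
    (c.φ hZ).hom ≫ ((c.φ hZ).inv ≫ G.map p ≫ δ G _ _ ≫ ((c.φ hX).hom ⊗ₘ (c.φ fcRr).hom)) ≫
      (𝟙 (S.obj X) ⊗ₘ S.line) ≫ SHCat.tenSus (S.obj X) := by
  have n := TensorTriangulated.e_naturality (c.φ hX).hom
  simp only [Functor.map_comp, map_tensor, he, eG_hom, c.line_eq, CategoryTheory.Functor.map_id,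
    Category.assoc, μ_δ_assoc, Iso.inv_hom_id_app_assoc, Iso.hom_inv_id_assoc, ← n]
  simp only [← tensorHom_id, ← id_tensorHom, tensorHom_comp_tensorHom_assoc, Category.assoc,
    Iso.inv_hom_id, Category.comp_id, Category.id_comp]

variable [G.Full] [G.Faithful] [G.Additive] [G.IsTriangulated]

/-- **The transported suspension spectrum functor**; its data are `d`. -/
def susp (he : ∀ Y : T₁.C, G.map (SHCat.tenSus Y) = (eG G Y).hom) : Susp T₁ where
  toSuspData := d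
  map_id f hX h := G.map_injective (by
    rw [c.map_eq hX hX, S.map_id f hX h]
    simp)
  map_comp f g h hX hY hZ e := G.map_injective (by
    rw [Functor.map_comp, c.map_eq hX hY, c.map_eq hY hZ, c.map_eq hX hZ,
      S.map_comp f g h hX hY hZ e]
    simp)
  map_homotopic f g hX hY h := G.map_injective (by
    rw [c.map_eq hX hY, c.map_eq hX hY, S.map_homotopic f g hX hY h])
  isZero hX h := G.map_injective (by
    have h0 : 𝟙 _ = 0 := S.isZero hX h
    rw [CategoryTheory.Functor.map_id, Functor.map_zero, ← (c.φ hX).hom_inv_id,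
      ← Category.comp_id (c.φ hX).hom, h0, comp_zero, zero_comp])
  unit_isIso := by
    have := S.unit_isIso
    have : IsIso (G.map d.unit) := by rw [c.unit_eq]; infer_instance
    exact isIso_of_fully_faithful G _
  line_isIso := by
    have := S.line_isIso
    have : IsIso (G.map d.line) := by rw [c.line_eq]; infer_instance
    exact isIso_of_fully_faithful G _
  mul_isIso {A B} hX hY := by
    have := S.mul_isIso hX hY
    have : IsIso (G.map (d.mul A B)) := by rw [c.mul_eq hX hY]; infer_instance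
    exact isIso_of_fully_faithful G _
  mul_natural f g h hX hX' hY hY' e := G.map_injective
    (c.mul_natural f g h hX hX' hY hY' (S.mul_natural f g h hX hX' hY hY' e))
  mul_assoc a hX hY hZ e := G.map_injective (c.mul_assoc a hX hY hZ (S.mul_assoc a hX hY hZ e))
  mul_unit a hX e := G.map_injective (c.mul_unit a hX (S.mul_unit a hX e))
  mul_comm a hX hY e := G.map_injective (c.mul_comm a hX hY (S.mul_comm a hX hY e))
  cone f j k q p hX hY hZ h e := by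
    refine (G.map_distinguished_iff _).1 (isomorphic_distinguished _
      (S.cone f j k q _ hX hY hZ h (c.cone_aux hX hZ q p e)) _ ?_)
    exact Triangle.isoMk _ _ (c.φ hX) (c.φ hY) (c.φ hZ) (c.map hX hY f) (c.map hY hZ j)
      (c.cone_third he hX hZ p)
  full g hX hY := by
    obtain ⟨n, h, e⟩ := S.full ((c.φ hX).inv ≫ G.map g ≫ (c.φ hY).hom) hX hY
    exact ⟨n, h, G.map_injective (c.full_aux hX hY (FC.sph n) g h e)⟩
  faithful f g hX hY e := S.faithful f g hX hY (by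
    rw [← cancel_epi (c.φ hX).hom, ← c.map hX hY, ← c.map hX hY, e])

end Cmp

end Vale.Agent.P241CT
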