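import Vale.Agent.P241CT.Alt
import Vale.Agent.P241CT.Susp

/-!
# A suspension spectrum functor with prescribed data for the second monoidal structure
-/

open CategoryTheory MonoidalCategory
open Functor.LaxMonoidal

namespace Vale.Agent.P241CT

open Vale.Agent.P251.St

variable {T : SHCat} (m : MS T.C) (b : (ofAlt m).Braided) (S : Susp T)
  (ob : Space → (alt m b).C) (mp : ∀ {X Y : Space}, Map X Y → (ob X ⟶ ob Y))
  (ml : ∀ X Y : Space, ob X ⊗ ob Y ⟶ ob (X.prod Y)) (un : 𝟙_ (alt m b).C ⟶ ob Pn)
  (φ : ∀ {X : Space}, FC X → ((altG m b).obj (ob X) ≅ S.obj X))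

/-- the data, with the induced identification of the circle -/
noncomputable def altData : SuspData (alt m b) where
  obj := ob
  map := mp
  mul := ml
  unit := un
  line := (altG m b).preimage ((φ fcRr).hom ≫ S.line ≫ (sIso (altG m b)).inv)

/-- **The suspension spectrum functor with the data `ob`, `mp`, `ml`, `un`.** -/
noncomputable def altSusp
    (h₁ : ∀ {X Y : Space} (hX : FC X) (hY : FC Y) (f : Map X Y),
      (altG m b).map (mp f) ≫ (φ hY).hom = (φ hX).hom ≫ S.map f)
    (h₂ : ∀ {X Y : Space} (hX : FC X) (hY : FC Y),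
      μ (altG m b) _ _ ≫ (altG m b).map (ml X Y) ≫ (φ (fc_prod hX hY)).hom =
        ((φ hX).hom ⊗ₘ (φ hY).hom) ≫ S.mul X Y)
    (h₃ : ε (altG m b) ≫ (altG m b).map un ≫ (φ fcPn).hom = S.unit) : Susp (alt m b) :=
  Cmp.susp (G := altG m b) (d := altData m b S ob mp ml un φ) (S := S)
    { φ := φ
      map := h₁
      mul := h₂
      unit := h₃
      line := (congrArg (· ≫ (sIso (altG m b)).hom) ((altG m b).map_preimage
        ((φ fcRr).hom ≫ S.line ≫ (sIso (altG m b)).inv))).trans (by
          simp only [Category.assoc, Iso.inv_hom_id, Category.comp_id]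
          rfl) } (altG_tenSus m b)

end Vale.Agent.P241CT
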