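import Vale.Agent.P241CT.Lax
import Vale.Agent.P241CT.Heavy
import Vale.Agent.P241CB.Fg
import Mathlib.CategoryTheory.Preadditive.Biproducts

/-!
# The stable homotopy category underlies a tensor triangulated category
-/

open CategoryTheory MonoidalCategory Limits
open Functor.LaxMonoidal Functor.OplaxMonoidal

set_option linter.unusedSectionVars false

namespace Vale.Agent.P241CT

open Vale.Agent.P251 Vale.Agent.P251.G Vale.Agent.P251.G.LC Vale.Agent.P251.H
  Vale.Agent.P251.H.StabInput Vale.Agent.P251CM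
open Vale.Agent.P251.St (Space toLC toHom Pn fcPn fc_prod SHCat Susp FC)
open Vale.Agent.P241L (SM fg)

variable {M : Type 1} [Category.{0} M] [MonoidalCategory M] [SymmetricCategory M]
    [MonoidalClosed M] [HasZeroMorphisms M] [HasColimitsOfSize.{0, 0} M] [StabInput M]

namespace GenL

variable {T : SM} (D : GenL M T)

/-- the monoidal structure of `T` -/
def ms : MS (shOf D.L0).C := ⟨T.mn, T.sy⟩

/-- the localization functor -/
def LA : FlatCat (WW M) ⥤ Alt D.ms := D.L0

noncomputable instance : D.LA.Braided := inferInstanceAs D.L0.Braided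

instance : D.LA.IsLocalization (CofCat.W (C := FlatCat (WW M))) :=
  inferInstanceAs (D.L0.IsLocalization (CofCat.W (C := FlatCat (WW M))))

noncomputable instance : Localization.Lifting D.LA (CofCat.W (C := FlatCat (WW M))) (LF D.L0) (ofAlt D.ms) :=
  ⟨Iso.refl _⟩

/-- the comparison of the two monoidal structures -/
@[instance_reducible] noncomputable def mon : (ofAlt D.ms).Monoidal :=
  Localization.Monoidal.functorMonoidalOfComp D.LA (CofCat.W (C := FlatCat (WW M)))
    (ofAlt D.ms) (LF D.L0)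

/-- the comparison of the two symmetric monoidal structures -/
@[instance_reducible] noncomputable def brd : (ofAlt D.ms).Braided where
  toMonoidal := D.mon
  braided X Y :=
    letI := D.mon
    haveI := Localization.essSurj D.LA (CofCat.W (C := FlatCat (WW M)))
    haveI := Localization.Monoidal.lifting_isMonoidal D.LA (CofCat.W (C := FlatCat (WW M)))
      (ofAlt D.ms) (LF D.L0)
    braided_of_comp D.LA (ofAlt D.ms) (LF D.L0)
      (Localization.Lifting.iso D.LA (CofCat.W (C := FlatCat (WW M))) (LF D.L0) (ofAlt D.ms)) X Y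

/-- the heavy category -/
noncomputable abbrev hv : SHCat := alt D.ms D.brd

/-- the comparison functor -/
noncomputable abbrev gg : D.hv.C ⥤ (shOf D.L0).C := altG D.ms D.brd

/-- the lax structure -/
def mh (X Y : FlatCat (WW M)) : (D.LA.obj X : D.hv.C) ⊗ (D.LA.obj Y : D.hv.C) ⟶ D.LA.obj (X ⊗ Y) :=
  D.mu X.obj Y.obj

/-- the unit -/
noncomputable def eh : 𝟙_ D.hv.C ⟶ D.LA.obj (𝟙_ _) := D.e0

theorem mu_gg (X Y : FlatCat (WW M)) :
    μ D.gg (D.LA.obj X) (D.LA.obj Y) ≫ D.gg.map (D.mh X Y) = μ (LF D.L0) X Y := by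
  let _ := D.mon
  have h := (Localization.Monoidal.lifting_isMonoidal D.LA (CofCat.W (C := FlatCat (WW M)))
      (ofAlt D.ms) (LF D.L0)).tensor X Y
  change (μ D.gg (D.LA.obj X) (D.LA.obj Y) ≫ D.gg.map (D.mh X Y)) ≫ 𝟙 _ =
    (𝟙 ((LF D.L0).obj X) ⊗ₘ 𝟙 ((LF D.L0).obj Y)) ≫ μ (LF D.L0) X Y at h
  rw [Category.comp_id, id_tensorHom_id, Category.id_comp] at h
  exact h

theorem eps_gg : ε D.gg ≫ D.gg.map D.eh = ε (LF D.L0) := by
  let _ := D.mon
  have h := (Localization.Monoidal.lifting_isMonoidal D.LA (CofCat.W (C := FlatCat (WW M)))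
      (ofAlt D.ms) (LF D.L0)).unit
  exact (Category.comp_id _).symm.trans h

/-- the objects -/
def ob (X : Space) : D.hv.C := T.sus X

/-- the maps -/
def mp {X Y : Space} (f : St.Map X Y) : D.ob X ⟶ D.ob Y := T.sm f

/-- the multiplication -/
def ml (X Y : Space) : D.ob X ⊗ D.ob Y ⟶ D.ob (X.prod Y) := T.sx X Y

/-- the unit -/
def un : 𝟙_ D.hv.C ⟶ D.ob Pn := T.su

/-- the comparison of suspension spectra -/
def ih {X : Space} (h : FC X) : D.ob X ⟶ D.LA.obj (flJ h) := D.io X

/-- the comparison of suspension spectra -/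
noncomputable def ph {X : Space} (h : FC X) : D.gg.obj (D.ob X) ≅ (suspOf D.L0).obj X :=
  D.gg.mapIso (@asIso _ _ _ _ (D.ih h) (D.io_iso h)) ≪≫ (eS D.L0 h).symm

theorem ph_eS {X : Space} (h : FC X) : (D.ph h).hom ≫ (eS D.L0 h).hom = D.gg.map (D.ih h) :=
  (Category.assoc _ _ _).trans ((congrArg (_ ≫ ·) (eS D.L0 h).inv_hom_id).trans
    (Category.comp_id _))

/-- the suspension spectrum functor -/
noncomputable def su : Susp D.hv :=
  altSusp D.ms D.brd (suspOf D.L0) D.ob D.mp D.ml D.un D.ph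
    (fun hX hY f => by
      rw [← cancel_mono (eS D.L0 hY).hom, Category.assoc, Category.assoc, D.ph_eS,
        map_eS D.L0 hX hY, reassoc_of% D.ph_eS hX]
      exact D.io_nat f hX hY)
    (fun {X Y} hX hY => by
      have e : D.gg.map (D.ml X Y) ≫ D.gg.map (D.ih (fc_prod hX hY)) =
          D.gg.map (D.ih hX ⊗ₘ D.ih hY) ≫ D.gg.map (D.mh (flJ hX) (flJ hY)) ≫
            (LF D.L0).map (flMul hX hY) := D.io_mul hX hY
      rw [← cancel_mono (eS D.L0 (fc_prod hX hY)).hom, Category.assoc, Category.assoc,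
        Category.assoc, D.ph_eS, mul_eS D.L0 hX hY, tensorHom_comp_tensorHom_assoc, D.ph_eS,
        D.ph_eS, ← D.mu_gg]
      exact (congrArg (_ ≫ ·) e).trans ((μ_natural_assoc D.gg (D.ih hX) (D.ih hY) _).symm.trans
        (congrArg (_ ≫ ·) (Category.assoc _ _ _).symm)))
    (by
      have e : D.gg.map D.un ≫ D.gg.map (D.ih fcPn) = D.gg.map D.eh ≫ (LF D.L0).map flUnit := by
        change T.su ≫ D.io Pn = (T.su ≫ D.io Pn ≫ D.L.map (eJ (M := M)).inv) ≫
          D.L.map (eJ (M := M)).hom
        rw [Category.assoc, Category.assoc, ← D.L.map_comp, Iso.inv_hom_id, D.L.map_id,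
          Category.comp_id]
      rw [← cancel_mono (eS D.L0 fcPn).hom, Category.assoc, Category.assoc, D.ph_eS, unit_eS,
        ← D.eps_gg]
      exact (congrArg (_ ≫ ·) e).trans (Category.assoc _ _ _).symm)

theorem fg_eq : fg D.hv D.su = T := by
  have h : (D.hv.preadditive : Preadditive T.Sp) = T.ad :=
    @Subsingleton.elim (Preadditive D.hv.C) subsingleton_preadditive_of_hasBinaryBiproducts _ _
  exact congrArg (fun a : Preadditive T.Sp =>
    @SM.mk T.Sp T.ca a T.mn T.sy T.sus T.sm T.sx T.su) h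

end GenL

/-- **The light structure underlies a heavy one.** -/
theorem exists_heavy {T : SM} (I : P241L.IsSH T) :
    ∃ (T₁ : SHCat) (S₁ : Susp T₁), fg T₁ S₁ = T :=
  let D := (midL (P251CZ.br2 P251CV.R P251CE.qd) I).genL
  ⟨D.hv, D.su, D.fg_eq⟩

end Vale.Agent.P241CT
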