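import Vale.Agent.P241CT.TT

/-!
# A stable homotopy category with a second, equivalent, symmetric monoidal structure
-/

open CategoryTheory MonoidalCategory Limits Pretriangulated
open Functor.LaxMonoidal Functor.OplaxMonoidal Functor.Monoidal

namespace Vale.Agent.P241CT

open Vale.Agent.P251.T Vale.Agent.P251.St

/-- A symmetric monoidal structure on a category. -/
structure MS (C : Type 1) [Category.{0} C] where
  /-- the monoidal structure -/
  mn : MonoidalCategory C
  /-- the symmetry -/
  sy : @SymmetricCategory C _ mn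

variable {T : SHCat}

/-- The category of `T`, with another symmetric monoidal structure. -/
def Alt (_ : MS T.C) : Type 1 := T.C

variable (m : MS T.C)

instance : Category.{0} (Alt m) := T.cat
instance : Preadditive (Alt m) := T.preadditive
instance : HasZeroObject (Alt m) := T.zero
instance : HasShift (Alt m) ℤ := T.shift
instance (n : ℤ) : (shiftFunctor (Alt m) n).Additive := T.additive n
instance : Pretriangulated (Alt m) := T.pretriangulated
instance : IsTriangulated (Alt m) := T.triangulated
instance : HasCoproducts.{0} (Alt m) := T.coproducts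
instance : HasProducts.{0} (Alt m) := T.products
instance : MonoidalCategory (Alt m) := m.mn
instance : SymmetricCategory (Alt m) := m.sy

/-- the identity functor -/
def ofAlt : Alt m ⥤ T.C := 𝟭 T.C

instance : (ofAlt m).IsEquivalence := inferInstanceAs (𝟭 T.C).IsEquivalence
instance : (ofAlt m).Additive := inferInstanceAs (𝟭 T.C).Additive
noncomputable instance : (ofAlt m).CommShift ℤ := inferInstanceAs ((𝟭 T.C).CommShift ℤ)
instance : (ofAlt m).IsTriangulated := inferInstanceAs (𝟭 T.C).IsTriangulated

theorem cpt_of_iso {A : T.C} (i : 𝟙_ T.C ≅ A) (n : ℤ) {I : Type} (X : I → T.C)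
    (f : A⟦n⟧ ⟶ ∐ X) : ∃ (s : Finset I) (g : A⟦n⟧ ⟶ ∐ (fun i : s => X i)),
      g ≫ Sigma.desc (fun i : s => Sigma.ι X i) = f := by
  obtain ⟨s, g, h⟩ := T.stable.compact n X (i.hom⟦n⟧' ≫ f)
  refine ⟨s, i.inv⟦n⟧' ≫ g, ?_⟩
  rw [Category.assoc, h, ← Functor.map_comp_assoc, Iso.inv_hom_id,
    CategoryTheory.Functor.map_id, Category.id_comp]

theorem gen_of_iso {A : T.C} (i : 𝟙_ T.C ≅ A) (X : T.C)
    (h : ∀ (n : ℤ) (f : A⟦n⟧ ⟶ X), f = 0) : IsZero X :=
  T.stable.generator X fun n f => by
    rw [← cancel_epi (i.inv⟦n⟧'), h n (i.inv⟦n⟧' ≫ f), comp_zero]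

variable (b : (ofAlt m).Braided)

/-- **The stable homotopy category with the second monoidal structure.** -/
noncomputable def alt : SHCat :=
  letI := b
  letI := tt (ofAlt m)
  letI := MonoidalClosed.ofEquiv (ofAlt m) (ofAlt m).asEquivalence.toAdjunction
  letI : StableCat (Alt m) :=
    { compact := fun n _ X f => cpt_of_iso (εIso (ofAlt m)) n X f
      generator := fun X h => gen_of_iso (εIso (ofAlt m)) X h }
  { C := Alt m }

/-- the identity functor `alt m b ⥤ T` -/
def altG : (alt m b).C ⥤ T.C := ofAlt m

instance : (altG m b).IsEquivalence := inferInstanceAs (ofAlt m).IsEquivalence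
instance : (altG m b).Additive := inferInstanceAs (ofAlt m).Additive
noncomputable instance : (altG m b).CommShift ℤ := inferInstanceAs ((ofAlt m).CommShift ℤ)
instance : (altG m b).IsTriangulated := inferInstanceAs (ofAlt m).IsTriangulated
noncomputable instance : (altG m b).Braided := b

theorem altG_tenSus (Y : (alt m b).C) :
    (altG m b).map (SHCat.tenSus Y) = (eG (altG m b) Y).hom :=
  letI := b
  map_tt_e (ofAlt m) Y

end Vale.Agent.P241CT
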