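import Vale.Agent.P241CT.GenL
import Mathlib.CategoryTheory.Localization.Monoidal.Functor

/-!
# The localization of the flat objects is a braided functor
-/

open CategoryTheory MonoidalCategory Limits
open Functor.LaxMonoidal Functor.OplaxMonoidal

set_option linter.unusedSectionVars false

namespace Vale.Agent.P241CT

open Vale.Agent.P251 Vale.Agent.P251.G Vale.Agent.P251.G.LC Vale.Agent.P251.H
  Vale.Agent.P251.H.StabInput Vale.Agent.P251CM Vale.Agent.P251CL
open Vale.Agent.P251.St (Space toLC toHom Pn fcPn fc_prod)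
open Vale.Agent.P241L (SM)

section

variable {C D E : Type*} [Category* C] [Category* D] [Category* E]
  [MonoidalCategory C] [MonoidalCategory D] [MonoidalCategory E]
  [BraidedCategory C] [BraidedCategory D] [BraidedCategory E]

/-- a monoidal functor out of a braided localization is braided when the composite is -/
theorem braided_of_comp (L : C ⥤ D) [L.Braided] [L.EssSurj] (F : D ⥤ E) [F.Monoidal] (G : C ⥤ E)
    [G.Braided] (e : L ⋙ F ≅ G) [NatTrans.IsMonoidal e.hom] (X Y : D) :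
    μ F X Y ≫ F.map (β_ X Y).hom = (β_ (F.obj X) (F.obj Y)).hom ≫ μ F Y X := by
  have h (A B : C) : μ F (L.obj A) (L.obj B) ≫ F.map (β_ (L.obj A) (L.obj B)).hom =
      (β_ (F.obj (L.obj A)) (F.obj (L.obj B))).hom ≫ μ F (L.obj B) (L.obj A) := by
    have t (A B : C) : (μ F (L.obj A) (L.obj B) ≫ F.map (μ L A B)) ≫ e.hom.app (A ⊗ B) =
        (e.hom.app A ⊗ₘ e.hom.app B) ≫ μ G A B := NatTrans.IsMonoidal.tensor (τ := e.hom) A B
    have n : F.map (L.map (β_ A B).hom) ≫ e.hom.app (B ⊗ A) =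
        e.hom.app (A ⊗ B) ≫ G.map (β_ A B).hom := e.hom.naturality _
    have i : IsIso (F.map (μ L B A) ≫ e.hom.app (B ⊗ A)) := inferInstance
    rw [← cancel_mono (F.map (μ L B A) ≫ e.hom.app (B ⊗ A)), Category.assoc, Category.assoc,
      ← F.map_comp_assoc, ← Functor.Braided.braided, F.map_comp, Category.assoc, n,
      ← Category.assoc (μ F (L.obj B) _), t, ← Category.assoc, ← Category.assoc, t,
      Category.assoc, Functor.Braided.braided]
    exact BraidedCategory.braiding_naturality_assoc _ _ _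
  let i := L.objObjPreimageIso X
  let j := L.objObjPreimageIso Y
  have hi : IsIso (F.map i.hom ⊗ₘ F.map j.hom) := (F.mapIso i ⊗ᵢ F.mapIso j).isIso_hom
  rw [← cancel_epi (F.map i.hom ⊗ₘ F.map j.hom), μ_natural_assoc, ← F.map_comp,
    BraidedCategory.braiding_naturality, F.map_comp, reassoc_of% h,
    BraidedCategory.braiding_naturality_assoc, μ_natural]

end

variable {M : Type 1} [Category.{0} M] [MonoidalCategory M] [SymmetricCategory M]
    [MonoidalClosed M] [HasZeroMorphisms M] [HasColimitsOfSize.{0, 0} M] [StabInput M]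

/-- the unit of `J` -/
noncomputable def eJ : 𝟙_ M ≅ (J M).obj (toLC Pn) := Functor.Monoidal.εIso (J M)

namespace GenL

variable {T : SM} (D : GenL M T)

theorem mu_left {X X' : M} (f : X ⟶ X') (Y : M) :
    D.L.map f ▷ D.L.obj Y ≫ D.mu X' Y = D.mu X Y ≫ D.L.map (f ▷ Y) := by
  have := D.mu_nat f (𝟙 Y)
  rw [D.L.map_id, tensorHom_id, tensorHom_id] at this
  exact this.symm

theorem mu_right (X : M) {Y Y' : M} (g : Y ⟶ Y') :
    D.L.obj X ◁ D.L.map g ≫ D.mu X Y' = D.mu X Y ≫ D.L.map (X ◁ g) := by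
  have := D.mu_nat (𝟙 X) g
  rw [D.L.map_id, id_tensorHom, id_tensorHom] at this
  exact this.symm

theorem isIso_of_whiskerLeft {A B : T.Sp} (f : A ⟶ B) (h : ∀ X : M, IsIso (D.L.obj X ◁ f)) :
    IsIso f := by
  have := D.loc
  have := Localization.essSurj D.L (WW M)
  let e := D.L.objObjPreimageIso (𝟙_ T.Sp)
  have := h (D.L.objPreimage (𝟙_ T.Sp))
  have e1 : f = (λ_ A).inv ≫ e.inv ▷ A ≫ D.L.obj _ ◁ f ≫ e.hom ▷ B ≫ (λ_ B).hom := by
    rw [whisker_exchange_assoc, ← comp_whiskerRight_assoc, e.inv_hom_id, id_whiskerRight,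
      Category.id_comp, leftUnitor_naturality, Iso.inv_hom_id_assoc]
  rw [e1]
  infer_instance

/-- the unit -/
noncomputable def e0 : 𝟙_ T.Sp ⟶ D.L.obj (𝟙_ M) := T.su ≫ D.io Pn ≫ D.L.map (eJ (M := M)).inv

theorem right_unit (X : M) :
    D.L.obj X ◁ D.e0 ≫ D.mu X (𝟙_ M) ≫ D.L.map (ρ_ X).hom = (ρ_ (D.L.obj X)).hom := by
  have h : D.L.obj X ◁ (T.su ≫ D.io Pn) ≫ D.mu X ((J M).obj (toLC Pn)) =
    (ρ_ _).hom ≫ D.L.map ((ρ_ X).inv ≫ X ◁ (eJ (M := M)).hom) := D.mu_unit X
  rw [e0, ← Category.assoc T.su, MonoidalCategory.whiskerLeft_comp, Category.assoc,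
    reassoc_of% D.mu_right, reassoc_of% h, ← D.L.map_comp, ← D.L.map_comp, Category.assoc,
    whiskerLeft_hom_inv_assoc, Iso.inv_hom_id, D.L.map_id, Category.comp_id]

theorem left_unit (X : M) :
    D.e0 ▷ D.L.obj X ≫ D.mu (𝟙_ M) X ≫ D.L.map (λ_ X).hom = (λ_ (D.L.obj X)).hom := by
  rw [← braiding_rightUnitor X, D.L.map_comp, reassoc_of% D.mu_comm,
    BraidedCategory.braiding_naturality_left_assoc, D.right_unit, braiding_rightUnitor]

theorem isIso_e0 : IsIso D.e0 := D.isIso_of_whiskerLeft _ fun X => by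
  have := D.mu_iso X (𝟙_ M) (flatInput (WW M)).flat_unit
  have : IsIso (D.L.obj X ◁ D.e0 ≫ D.mu X (𝟙_ M) ≫ D.L.map (ρ_ X).hom) := by
    rw [D.right_unit]
    infer_instance
  exact IsIso.of_isIso_comp_right _ (D.mu X (𝟙_ M) ≫ D.L.map (ρ_ X).hom)

/-- the localization of the flat objects -/
def L0 : FlatCat (WW M) ⥤ T.Sp := (Flat (WW M)).ι ⋙ D.L

instance : D.L0.IsLocalization (CofCat.W (C := FlatCat (WW M))) := by
  have := D.loc
  obtain ⟨Q, q, hQ, hq⟩ := P251CB.exists_flat_repl M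
  exact isLocalization_comp (CofCat.W (C := FlatCat (WW M))) (WW M) (Flat (WW M)).ι
    (liftQ (WW M) Q hQ) D.L (fun _ _ f hf => Localization.inverts D.L (WW M) f.hom hf)
    (fun _ _ f hf => Localization.inverts (CofCat.W (C := FlatCat (WW M))).Q
      (CofCat.W (C := FlatCat (WW M))) ((liftQ (WW M) Q hQ).map f) ((W_Q_map_iff (WW M) Q q hq f).2 hf))
    (flatIso (WW M) Q hQ q hq _)
    ((Functor.associator _ _ _).symm ≪≫ isoOfInverts D.L (liftq (WW M) Q hQ q)
      (fun X => Localization.inverts D.L (WW M) _ (hq X)) ≪≫ Functor.leftUnitor _)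

/-- the monoidal structure -/
noncomputable def core : D.L0.CoreMonoidal where
  εIso := @asIso _ _ _ _ D.e0 D.isIso_e0
  μIso X Y := @asIso _ _ _ _ (D.mu X.obj Y.obj) (D.mu_iso _ _ Y.property)
  μIso_hom_natural_left f X := D.mu_left f.hom X.obj
  μIso_hom_natural_right X f := D.mu_right X.obj f.hom
  associativity X Y Z := D.mu_assoc X.obj Y.obj Z.obj
  left_unitality X := (D.left_unit X.obj).symm
  right_unitality X := (D.right_unit X.obj).symm

noncomputable instance : D.L0.Braided where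
  toMonoidal := D.core.toMonoidal
  braided X Y := D.mu_comm X.obj Y.obj

theorem μ_L0 (X Y : FlatCat (WW M)) : μ D.L0 X Y = D.mu X.obj Y.obj := rfl

theorem ε_L0 : ε D.L0 = D.e0 := rfl

end GenL

end Vale.Agent.P241CT
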