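import Vale.Agent.P251.St.Base
import Mathlib.CategoryTheory.Triangulated.Functor
import Mathlib.CategoryTheory.Monoidal.Braided.Basic

/-!
# Transport of a tensor triangulated structure along a fully faithful braided functor
-/

open CategoryTheory MonoidalCategory Limits Pretriangulated
open Functor.LaxMonoidal Functor.OplaxMonoidal Functor.Monoidal

set_option linter.unusedSectionVars false

namespace Vale.Agent.P241CT

open Vale.Agent.P251.T

universe v u

variable {C D : Type u} [Category.{v} C] [Preadditive C] [HasZeroObject C]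
  [HasShift C ℤ] [∀ n : ℤ, (shiftFunctor C n).Additive] [Pretriangulated C]
  [MonoidalCategory C] [SymmetricCategory C]
  [Category.{v} D] [Preadditive D] [HasZeroObject D]
  [HasShift D ℤ] [∀ n : ℤ, (shiftFunctor D n).Additive] [Pretriangulated D]
  [MonoidalCategory D] [SymmetricCategory D]
  (G : D ⥤ C) [G.Braided] [G.CommShift ℤ]

/-- the image of the circle is the circle -/
noncomputable def sIso : G.obj ((𝟙_ D)⟦(1 : ℤ)⟧) ≅ (𝟙_ C)⟦(1 : ℤ)⟧ :=
  (G.commShiftIso (1 : ℤ)).app (𝟙_ D) ≪≫ (shiftFunctor C (1 : ℤ)).mapIso (εIso G).symm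

variable [TensorTriangulated C]

/-- the image of the structure isomorphism -/
noncomputable def eG (Y : D) : G.obj (Y ⊗ (𝟙_ D)⟦(1 : ℤ)⟧) ≅ G.obj (Y⟦(1 : ℤ)⟧) :=
  (μIso G Y _).symm ≪≫ whiskerLeftIso (G.obj Y) (sIso G) ≪≫
    TensorTriangulated.e (G.obj Y) ≪≫ ((G.commShiftIso (1 : ℤ)).app Y).symm

theorem eG_hom (Y : D) : (eG G Y).hom = δ G Y _ ≫ G.obj Y ◁ (sIso G).hom ≫
    (TensorTriangulated.e (G.obj Y)).hom ≫ (G.commShiftIso (1 : ℤ)).inv.app Y := rfl

theorem eG_inv (Y : D) : (eG G Y).inv = (G.commShiftIso (1 : ℤ)).hom.app Y ≫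
    (TensorTriangulated.e (G.obj Y)).inv ≫ G.obj Y ◁ (sIso G).inv ≫ μ G Y _ := by
  simp [eG]

theorem eG_nat {Y Z : D} (f : Y ⟶ Z) :
    G.map (f ▷ (𝟙_ D)⟦(1 : ℤ)⟧) ≫ (eG G Z).hom = (eG G Y).hom ≫ G.map (f⟦(1 : ℤ)⟧') := by
  have h1 := TensorTriangulated.e_naturality (G.map f)
  have h2 := (G.commShiftIso (1 : ℤ)).inv.naturality f
  simp only [Functor.comp_map] at h2
  rw [eG_hom, eG_hom, ← δ_natural_left_assoc, ← whisker_exchange_assoc, reassoc_of% h1, h2]
  simp only [Category.assoc]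

theorem eG_unit : (eG G (𝟙_ D)).hom = G.map (λ_ ((𝟙_ D)⟦(1 : ℤ)⟧)).hom := by
  have h1 := TensorTriangulated.e_naturality (η G)
  have h2 : (TensorTriangulated.e (G.obj (𝟙_ D))).hom =
      η G ▷ (𝟙_ C)⟦(1 : ℤ)⟧ ≫ (λ_ _).hom ≫ (ε G)⟦(1 : ℤ)⟧' := by
    rw [← TensorTriangulated.e_unit, reassoc_of% h1, ← Functor.map_comp, η_ε,
      CategoryTheory.Functor.map_id, Category.comp_id]
  rw [eG_hom, h2, map_leftUnitor]
  simp only [Category.assoc]
  rw [whisker_exchange_assoc, leftUnitor_naturality_assoc]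
  simp [sIso, ← Functor.map_comp_assoc]

theorem map_sign [G.Additive] :
    G.map (β_ ((𝟙_ D)⟦(1 : ℤ)⟧) ((𝟙_ D)⟦(1 : ℤ)⟧)).hom = G.map (-𝟙 _) := by
  have h := BraidedCategory.braiding_naturality (sIso G).hom (sIso G).hom
  rw [TensorTriangulated.sign, Preadditive.comp_neg, Category.comp_id] at h
  have h2 : (β_ (G.obj ((𝟙_ D)⟦(1 : ℤ)⟧)) (G.obj ((𝟙_ D)⟦(1 : ℤ)⟧))).hom = -𝟙 _ := by
    rw [← cancel_mono ((sIso G).hom ⊗ₘ (sIso G).hom), ← h, Preadditive.neg_comp, Category.id_comp]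
  rw [Functor.map_braiding, h2]
  simp

theorem map_third (X Y Z : D) (h : Z ⟶ Y⟦(1 : ℤ)⟧)
    (a : Y⟦(1 : ℤ)⟧ ⟶ Y ⊗ (𝟙_ D)⟦(1 : ℤ)⟧) (ha : G.map a = (eG G Y).inv)
    (b : (X ⊗ Y) ⊗ (𝟙_ D)⟦(1 : ℤ)⟧ ⟶ (X ⊗ Y)⟦(1 : ℤ)⟧) (hb : G.map b = (eG G (X ⊗ Y)).hom) :
    (G.obj X ◁ (G.map h ≫ (G.commShiftIso (1 : ℤ)).hom.app Y) ≫
      G.obj X ◁ (TensorTriangulated.e (G.obj Y)).inv ≫ (α_ _ _ _).inv ≫
        (TensorTriangulated.e (G.obj X ⊗ G.obj Y)).hom) ≫ (μ G X Y)⟦(1 : ℤ)⟧' =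
    μ G X Z ≫ G.map (X ◁ h ≫ X ◁ a ≫ (α_ X Y _).inv ≫ b) ≫
      (G.commShiftIso (1 : ℤ)).hom.app (X ⊗ Y) := by
  have h1 := TensorTriangulated.e_naturality (μ G X Y)
  simp only [Functor.map_comp, Category.assoc, hb, eG_hom, Iso.inv_hom_id_app]
  rw [← μ_natural_right_assoc, ← μ_natural_right_assoc, ha, eG_inv, ← h1, map_associator_inv]
  simp only [MonoidalCategory.whiskerLeft_comp, Category.assoc, μ_δ_assoc, whiskerLeft_μ_δ_assoc]
  rw [associator_inv_naturality_right_assoc, whisker_exchange_assoc,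
    whiskerLeft_inv_hom_assoc]
  erw [Category.comp_id]

variable [G.Full] [G.Faithful] [G.Additive] [G.IsTriangulated]

/-- The transported structure. -/
@[instance_reducible]
noncomputable def tt : TensorTriangulated D :=
  { monoidalPreadditive_of_faithful G with
    e Y := G.preimageIso (eG G Y)
    e_naturality f := G.map_injective (by
      simp only [Functor.map_comp, Functor.preimageIso_hom, Functor.map_preimage]
      exact eG_nat G f)
    e_unit := G.map_injective (by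
      simp only [Functor.preimageIso_hom, Functor.map_preimage]
      exact eG_unit G)
    distinguished X Δ hΔ := by
      rw [← G.map_distinguished_iff]
      refine isomorphic_distinguished _ (TensorTriangulated.distinguished (G.obj X) _
        (G.map_distinguished Δ hΔ)) _ (Iso.symm ?_)
      exact Triangle.isoMk _ _ (μIso G X Δ.obj₁) (μIso G X Δ.obj₂) (μIso G X Δ.obj₃)
        (μ_natural_right G X Δ.mor₁) (μ_natural_right G X Δ.mor₂)
        (map_third G X _ _ Δ.mor₃ _ (G.map_preimage _) _ (G.map_preimage _))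
    sign := G.map_injective (map_sign G) }

theorem map_tt_e (Y : D) : G.map ((tt G).e Y).hom = (eG G Y).hom := G.map_preimage _

end Vale.Agent.P241CT
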